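import Mathlib

/-!
P344: every linear circuit for the discrete Fourier transform satisfies
(number of additions and subtractions) + (sum of `log₂ max(1, |λ|)` over the scalar
multiplications) `≥ (n/2) log₂ n`.
-/

namespace Vale.Agent.Results.P344.CoefficientTradeoff

/-- The values available after the values `l` have been computed: the computed values, the inputs
(coordinate forms) and the constant `0`. A value is the linear form given by its coefficients. -/
def Avail (n : ℕ) (l : List (Fin n → ℂ)) : Set (Fin n → ℂ) :=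
  {u | u ∈ l ∨ (∃ i : Fin n, u = Pi.single i 1) ∨ u = 0}

/-- Linear circuits: `Circuit n l a t` says that `l` is the list of the values (latest first)
computed by the gates of a linear circuit with `n` inputs, `a` of the gates are additions or
subtractions, and `t` is the sum of `log₂ max(1, |c|)` over the scalar multiplications by `c`. The
number of gates is the length of `l`. -/
inductive Circuit (n : ℕ) : List (Fin n → ℂ) → ℕ → ℝ → Prop
  | nil : Circuit n [] 0 0
  | add {l : List (Fin n → ℂ)} {a : ℕ} {t : ℝ} {u v : Fin n → ℂ} :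
      Circuit n l a t → u ∈ Avail n l → v ∈ Avail n l → Circuit n ((u + v) :: l) (a + 1) t
  | sub {l : List (Fin n → ℂ)} {a : ℕ} {t : ℝ} {u v : Fin n → ℂ} :
      Circuit n l a t → u ∈ Avail n l → v ∈ Avail n l → Circuit n ((u - v) :: l) (a + 1) t
  | smul {l : List (Fin n → ℂ)} {a : ℕ} {t : ℝ} {u : Fin n → ℂ} (c : ℂ) :
      Circuit n l a t → u ∈ Avail n l →
        Circuit n ((c • u) :: l) a (t + Real.logb 2 (max 1 ‖c‖))

/-- The `j`-th row of the discrete Fourier matrix of order `n`. -/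
noncomputable def dftRow (n : ℕ) (j : Fin n) : Fin n → ℂ :=
  fun k => Complex.exp (2 * Real.pi * Complex.I / n) ^ ((j : ℕ) * (k : ℕ))

lemma det_base {n : ℕ} (M : Matrix (Fin n) (Fin n) ℂ)
    (h : ∀ i, (∃ k : Fin n, M i = Pi.single k 1) ∨ M i = 0) : ‖M.det‖ ≤ 1 := by
  by_cases h0 : ∃ i, M i = 0
  · obtain ⟨i, hi⟩ := h0
    rw [Matrix.det_eq_zero_of_row_eq_zero i (fun j => by rw [hi]; rfl)]
    simp
  · push Not at h0
    have h1 : ∀ i, ∃ k : Fin n, M i = Pi.single k 1 := fun i => (h i).resolve_right (h0 i)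
    choose f hf using h1
    by_cases hinj : Function.Injective f
    · have hbij : Function.Bijective f := Finite.injective_iff_bijective.mp hinj
      set σ : Equiv.Perm (Fin n) := Equiv.ofBijective f hbij with hσ
      have hM : M = (1 : Matrix (Fin n) (Fin n) ℂ).submatrix σ id := by
        ext i j
        rw [hf i]
        simp only [Matrix.submatrix_apply, id, Matrix.one_apply, Pi.single_apply]
        have : σ i = f i := rfl
        rw [this]
        by_cases hij : j = f i
        · simp [hij]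
        · rw [if_neg hij, if_neg (fun h => hij h.symm)]
      rw [hM, Matrix.det_permute, Matrix.det_one, mul_one]
      rcases Int.units_eq_one_or (Equiv.Perm.sign σ) with h2 | h2 <;> rw [h2] <;> simp
    · unfold Function.Injective at hinj
      push Not at hinj
      obtain ⟨i, j, hij, hne⟩ := hinj
      rw [Matrix.det_zero_of_row_eq hne (by rw [hf i, hf j, hij])]
      simp

/-- replacing a row -/
lemma det_step {n : ℕ} {l : List (Fin n → ℂ)} {w : Fin n → ℂ} {b K : ℝ} (hb : 0 ≤ b) (hK : 1 ≤ K)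
    (hl : ∀ M : Matrix (Fin n) (Fin n) ℂ, (∀ i, M i ∈ Avail n l) → ‖M.det‖ ≤ b)
    (hw : ∀ (M : Matrix (Fin n) (Fin n) ℂ) (i : Fin n), (∀ j, j ≠ i → M j ∈ Avail n l) →
      M i = w → ‖M.det‖ ≤ K * b)
    (M : Matrix (Fin n) (Fin n) ℂ) (hM : ∀ i, M i ∈ Avail n (w :: l)) : ‖M.det‖ ≤ K * b := by
  have hmem : ∀ i, M i = w ∨ M i ∈ Avail n l := by
    intro i
    rcases hM i with h | h | h
    · rcases List.mem_cons.mp h with h | h
      · exact Or.inl h
      · exact Or.inr (Or.inl h)
    · exact Or.inr (Or.inr (Or.inl h))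
    · exact Or.inr (Or.inr (Or.inr h))
  by_cases h : ∃ i, M i = w
  · obtain ⟨i, hi⟩ := h
    by_cases h2 : ∃ j, j ≠ i ∧ M j = w
    · obtain ⟨j, hj, hjw⟩ := h2
      rw [Matrix.det_zero_of_row_eq hj (by rw [hi, hjw])]
      simp only [norm_zero]
      positivity
    · push Not at h2
      exact hw M i (fun j hj => (hmem j).resolve_left (h2 j hj)) hi
  · push Not at h
    have h3 := hl M (fun i => (hmem i).resolve_left (h i))
    nlinarith

lemma det_bound {n : ℕ} {l : List (Fin n → ℂ)} {a : ℕ} {t : ℝ} (hc : Circuit n l a t) :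
    ∀ M : Matrix (Fin n) (Fin n) ℂ, (∀ i, M i ∈ Avail n l) → ‖M.det‖ ≤ (2 : ℝ) ^ ((a : ℝ) + t) := by
  induction hc with
  | nil =>
    intro M hM
    simp only [Nat.cast_zero, add_zero, Real.rpow_zero]
    apply det_base
    intro i
    rcases hM i with h | h | h
    · simp at h
    · exact Or.inl h
    · exact Or.inr h
  | @add l a t u v _ hu hv ih =>
    have e : (2 : ℝ) ^ (((a + 1 : ℕ) : ℝ) + t) = 2 * (2 : ℝ) ^ ((a : ℝ) + t) := by
      rw [show ((a + 1 : ℕ) : ℝ) + t = 1 + ((a : ℝ) + t) by push_cast; ring,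
        Real.rpow_add (by norm_num), Real.rpow_one]
    rw [e]
    apply det_step (by positivity) (by norm_num) ih
    intro M i hM hi
    have h1 : M = M.updateRow i (u + v) := by rw [← hi, Matrix.updateRow_eq_self]
    rw [h1, Matrix.det_updateRow_add]
    have h2 : ∀ x ∈ Avail n l, ‖(M.updateRow i x).det‖ ≤ (2 : ℝ) ^ ((a : ℝ) + t) := by
      intro x hx
      apply ih
      intro j
      by_cases hj : j = i
      · subst hj; rw [Matrix.updateRow_self]; exact hx
      · rw [Matrix.updateRow_ne hj]; exact hM j hj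
    calc _ ≤ ‖(M.updateRow i u).det‖ + ‖(M.updateRow i v).det‖ := norm_add_le _ _
      _ ≤ _ := by linarith [h2 u hu, h2 v hv]
  | @sub l a t u v _ hu hv ih =>
    have e : (2 : ℝ) ^ (((a + 1 : ℕ) : ℝ) + t) = 2 * (2 : ℝ) ^ ((a : ℝ) + t) := by
      rw [show ((a + 1 : ℕ) : ℝ) + t = 1 + ((a : ℝ) + t) by push_cast; ring,
        Real.rpow_add (by norm_num), Real.rpow_one]
    rw [e]
    apply det_step (by positivity) (by norm_num) ih
    intro M i hM hi
    have h1 : M = M.updateRow i (u + (-1 : ℂ) • v) := by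
      rw [neg_one_smul, ← sub_eq_add_neg, ← hi, Matrix.updateRow_eq_self]
    rw [h1, Matrix.det_updateRow_add, Matrix.det_updateRow_smul]
    have h2 : ∀ x ∈ Avail n l, ‖(M.updateRow i x).det‖ ≤ (2 : ℝ) ^ ((a : ℝ) + t) := by
      intro x hx
      apply ih
      intro j
      by_cases hj : j = i
      · subst hj; rw [Matrix.updateRow_self]; exact hx
      · rw [Matrix.updateRow_ne hj]; exact hM j hj
    calc _ ≤ ‖(M.updateRow i u).det‖ + ‖(-1 : ℂ) * (M.updateRow i v).det‖ := norm_add_le _ _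
      _ ≤ _ := by
        rw [norm_mul, norm_neg, norm_one, one_mul]
        linarith [h2 u hu, h2 v hv]
  | @smul l a t u c _ hu ih =>
    have hm : (0 : ℝ) < max 1 ‖c‖ := lt_of_lt_of_le one_pos (le_max_left _ _)
    have e : (2 : ℝ) ^ ((a : ℝ) + (t + Real.logb 2 (max 1 ‖c‖))) =
        max 1 ‖c‖ * (2 : ℝ) ^ ((a : ℝ) + t) := by
      rw [show (a : ℝ) + (t + Real.logb 2 (max 1 ‖c‖)) = Real.logb 2 (max 1 ‖c‖) + ((a : ℝ) + t) by
        ring, Real.rpow_add (by norm_num), Real.rpow_logb (by norm_num) (by norm_num) hm]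
    rw [e]
    apply det_step (by positivity) (le_max_left _ _) ih
    intro M i hM hi
    have h1 : M = M.updateRow i (c • u) := by rw [← hi, Matrix.updateRow_eq_self]
    rw [h1, Matrix.det_updateRow_smul, norm_mul]
    have h2 : ‖(M.updateRow i u).det‖ ≤ (2 : ℝ) ^ ((a : ℝ) + t) := by
      apply ih
      intro j
      by_cases hj : j = i
      · subst hj; rw [Matrix.updateRow_self]; exact hu
      · rw [Matrix.updateRow_ne hj]; exact hM j hj
    exact mul_le_mul (le_max_right _ _) h2 (norm_nonneg _) hm.le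

lemma length_ge {n : ℕ} {l : List (Fin n → ℂ)} {a : ℕ} {t : ℝ} (hc : Circuit n l a t) :
    a ≤ l.length := by
  induction hc with
  | nil => simp
  | add _ _ _ ih => simpa using ih
  | sub _ _ _ ih => simpa using ih
  | smul c _ _ ih => simp only [List.length_cons]; omega

/-- the Fourier matrix satisfies `F F* = n I` -/
lemma dft_mul {n : ℕ} (hn : 0 < n) :
    (Matrix.of (dftRow n)) * (Matrix.of (dftRow n)).conjTranspose =
      (n : ℂ) • (1 : Matrix (Fin n) (Fin n) ℂ) := by
  set ζ : ℂ := Complex.exp (2 * Real.pi * Complex.I / n) with hζ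
  have hprim : IsPrimitiveRoot ζ n := Complex.isPrimitiveRoot_exp n hn.ne'
  have hζn : ζ ^ n = 1 := hprim.pow_eq_one
  have hnorm : ‖ζ‖ = 1 := hprim.norm'_eq_one hn.ne'
  have hζ0 : ζ ≠ 0 := hprim.ne_zero hn.ne'
  have hconj : (starRingEnd ℂ) ζ = ζ⁻¹ := by
    rw [Complex.inv_def, Complex.normSq_eq_norm_sq, hnorm]; simp
  ext i j
  rw [Matrix.mul_apply]
  have h1 : ∀ k : Fin n, Matrix.of (dftRow n) i k * (Matrix.of (dftRow n)).conjTranspose k j =
      (ζ ^ (i : ℕ) * (ζ ^ (j : ℕ))⁻¹) ^ (k : ℕ) := by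
    intro k
    rw [Matrix.conjTranspose_apply]
    show ζ ^ ((i : ℕ) * (k : ℕ)) * (starRingEnd ℂ) (ζ ^ ((j : ℕ) * (k : ℕ))) = _
    rw [map_pow, hconj, mul_pow, ← pow_mul, inv_pow, inv_pow, ← pow_mul]
  rw [Finset.sum_congr rfl (fun k _ => h1 k), Fin.sum_univ_eq_sum_range
    (fun k => (ζ ^ (i : ℕ) * (ζ ^ (j : ℕ))⁻¹) ^ k) n]
  by_cases hij : i = j
  · subst hij
    rw [mul_inv_cancel₀ (pow_ne_zero _ hζ0)]
    simp
  · have hz : ζ ^ (i : ℕ) * (ζ ^ (j : ℕ))⁻¹ ≠ 1 := by
      intro h
      have h2 : ζ ^ (i : ℕ) = ζ ^ (j : ℕ) := by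
        have := congrArg (fun x => x * ζ ^ (j : ℕ)) h
        simpa [mul_assoc, inv_mul_cancel₀ (pow_ne_zero _ hζ0)] using this
      exact hij (Fin.ext (hprim.pow_inj i.2 j.2 h2))
    rw [geom_sum_eq hz]
    have h3 : (ζ ^ (i : ℕ) * (ζ ^ (j : ℕ))⁻¹) ^ n = 1 := by
      rw [mul_pow, inv_pow, ← pow_mul, ← pow_mul, mul_comm (i : ℕ), mul_comm (j : ℕ), pow_mul,
        pow_mul, hζn, one_pow, one_pow, inv_one, mul_one]
    rw [h3, sub_self, zero_div]
    simp [hij]

/-- `|det F_n| = n^(n/2)` -/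
lemma dft_det {n : ℕ} (hn : 0 < n) : ‖(Matrix.of (dftRow n)).det‖ ^ 2 = (n : ℝ) ^ n := by
  have h := congrArg Matrix.det (dft_mul hn)
  rw [Matrix.det_mul, Matrix.det_conjTranspose, Matrix.det_smul, Matrix.det_one, mul_one,
    Fintype.card_fin] at h
  have h2 := congrArg norm h
  rw [norm_mul, norm_star, norm_pow, Complex.norm_natCast] at h2
  rw [sq]; exact h2

/-- For every linear circuit (arbitrary complex coefficients) whose computed values include all
coordinates of the discrete Fourier transform of order `n ≥ 2`: the number `a` of additions and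
subtractions plus the sum `t` of `log₂ max(1, |λ|)` over all scalar multiplications is at least
`(n/2) log₂ n`; here `a` is at most the number of gates. In particular, if `t ≤ (n/4) log₂ n` then
the circuit has at least `(n/4) log₂ n` gates. -/
theorem result (n : ℕ) (hn : 2 ≤ n) (l : List (Fin n → ℂ)) (a : ℕ) (t : ℝ)
    (hc : Circuit n l a t) (hout : ∀ j : Fin n, dftRow n j ∈ Avail n l) :
    (n : ℝ) / 2 * Real.logb 2 n ≤ a + t ∧ a ≤ l.length ∧
      (t ≤ (n : ℝ) / 4 * Real.logb 2 n → (n : ℝ) / 4 * Real.logb 2 n ≤ l.length) := by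
  have hlen := length_ge hc
  have hmain : (n : ℝ) / 2 * Real.logb 2 n ≤ a + t := by
    have h1 := det_bound hc (Matrix.of (dftRow n)) hout
    have h2 := dft_det (n := n) (by omega)
    have h3 : (n : ℝ) ^ n ≤ ((2 : ℝ) ^ ((a : ℝ) + t)) ^ 2 := by
      rw [← h2]; exact pow_le_pow_left₀ (norm_nonneg _) h1 2
    have hn0 : (0 : ℝ) < n := by exact_mod_cast (by omega : 0 < n)
    have h4 : Real.logb 2 ((n : ℝ) ^ n) ≤ Real.logb 2 (((2 : ℝ) ^ ((a : ℝ) + t)) ^ 2) :=
      Real.logb_le_logb_of_le (by norm_num) (by positivity) h3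
    rw [Real.logb_pow, Real.logb_pow, Real.logb_rpow (by norm_num) (by norm_num)] at h4
    push_cast at h4
    linarith
  refine ⟨hmain, hlen, fun ht => ?_⟩
  have : (a : ℝ) ≤ l.length := by exact_mod_cast hlen
  linarith

end Vale.Agent.Results.P344.CoefficientTradeoff
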