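import Vale.Agent.H20.P344.Lim

/-!
# P344: a zero-one law for the arithmetic complexity of the discrete Fourier transform

`L n` is the least number of gates of a linear circuit (with arbitrary complex coefficients)
computing the discrete Fourier transform of size `n`.
-/

open Filter Topology Vale.Agent.H20.P344

/-- (1) A circuit for one size `m` gives circuits for all sizes `n`:
`L n ≤ 8 (L m / m + 1) / log m * n log n + K n`. (2) Either `L n ≥ c n log n` for all large `n`
with some `c > 0`, or `L n = o(n log n)`. -/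
theorem Vale.Agent.Results.P344.ZeroOneLaw.result :
    (∀ m : ℕ, 2 ≤ m → ∃ K : ℝ, ∀ n : ℕ, 1 ≤ n →
      (L n : ℝ) ≤ n * (K + 8 * (((L m : ℝ) / m + 1) / Real.log m) * Real.log n)) ∧
    ((∃ c : ℝ, 0 < c ∧ ∀ᶠ n : ℕ in atTop, c * (n * Real.log n) ≤ L n) ∨
      Tendsto (fun n : ℕ => (L n : ℝ) / (n * Real.log n)) atTop (𝓝 0)) :=
  ⟨fun _ hm => one_size hm, dichotomy⟩
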